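import Vale.Agent.P366.H353.Basic

/-! Null shells: smoothness and continuity of the pointwise quantities. -/

open MeasureTheory Metric Filter Topology Set
open scoped ContDiff

noncomputable section
namespace Vale.Agent.P366.H353

open Vale.Agent.P366 (sphI sphM pd E)

variable {x : E 3}

lemma Sm.pr (i j : Fin 3) : Sm fun x => pr x i j :=
  (Sm.const _).sub ((Sm.coord i).mul (Sm.coord j))

namespace Dat

variable (D : Dat)

lemma Sm_W (i j : Fin 3) : Sm fun x => D.W x i j := (D.smH.hs i j).add (D.smU.mul (Sm.pr i j))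

lemma Sm_trW : Sm fun x => tr3 (D.W x) := Sm.sum _ fun i => D.Sm_W i i

lemma Sm_A (i j : Fin 3) : Sm fun x => D.A x i j :=
  (D.Sm_trW.mul (Sm.pr i j)).sub (D.Sm_W i j)

lemma Sm_dt : Sm D.dt := by
  have h1 : Sm fun x => ip3 (D.W x) (D.W x) :=
    Sm.sum _ fun i => Sm.sum _ fun j => (D.Sm_W i j).mul (D.Sm_W i j)
  exact ((D.Sm_trW.pow 2).sub h1).div (Sm.const 2) fun _ _ => two_ne_zero

lemma Sm_L {q : E 3 → ℝ} (hq : Sm q) : Sm (D.L q) := by
  have h1 : Sm fun x => ∑ i, ∑ j, hs D.H i j x * hs q i j x :=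
    Sm.sum _ fun i => Sm.sum _ fun j => (D.smH.hs i j).mul (hq.hs i j)
  have h2 : Sm fun x => ∑ i, pd i D.U x * pd i q x := Sm.sum _ fun i => (D.smU.pd i).mul (hq.pd i)
  exact (((D.smH.lap.mul hq.lap).sub h1).add (D.smU.mul hq.lap)).add h2

lemma Sm_qfA : Sm fun x => qf (D.A x) (D.gU x) (D.gU x) :=
  Sm.sum _ fun i => Sm.sum _ fun j => ((D.Sm_A i j).mul (D.smU.pd i)).mul (D.smU.pd j)

lemma contOn_dt : ContinuousOn D.dt (sphere (0 : E 3) 1) := D.Sm_dt.contOn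

lemma contOn_L {q : E 3 → ℝ} (hq : Sm q) : ContinuousOn (D.L q) (sphere (0 : E 3) 1) :=
  (D.Sm_L hq).contOn

lemma contOn_Phi (h0 : ∀ x : E 3, ‖x‖ = 1 → 0 < D.dt x) :
    ContinuousOn D.Phi (sphere (0 : E 3) 1) :=
  D.Sm_trW.contOn.add (D.Sm_qfA.contOn.div D.contOn_dt fun x hx => (h0 x (by simpa using hx)).ne')

end Dat

end Vale.Agent.P366.H353
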