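import Vale.Agent.P366.Bdl.B1

/-! Null shells in Minkowski space, `n = 3`: definitions.

All functions on the unit sphere `S` of `E 3` are written as homogeneous functions on `E 3 \ {0}`:
support functions have degree one, other functions degree zero. -/

open MeasureTheory Metric Filter Topology Set
open scoped ContDiff

noncomputable section
namespace Vale.Agent.P366.H353

open Vale.Agent.P366 (sphI sphM pd E)

/-- `f` is smooth off the origin. -/
def Sm (f : E 3 → ℝ) : Prop := ∀ x : E 3, x ≠ 0 → ContDiffAt ℝ ∞ f x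

/-- `f` is positively homogeneous of degree `k` off the origin. -/
def Hom (k : ℤ) (f : E 3 → ℝ) : Prop :=
  ∀ x : E 3, x ≠ 0 → ∀ r : ℝ, 0 < r → f (r • x) = r ^ k * f x

/-- The integral over the unit sphere. -/
def S2 (f : E 3 → ℝ) : ℝ := ∫ θ : sphere (0 : E 3) 1, f (θ : E 3) ∂(sphM 3)

/-- Kronecker delta. -/
def kd (i j : Fin 3) : ℝ := if i = j then 1 else 0

/-- The entries of the Hessian matrix. -/
def hs (f : E 3 → ℝ) (i j : Fin 3) (x : E 3) : ℝ := pd i (pd j f) x

/-- The Laplacian. -/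
def lap (f : E 3 → ℝ) (x : E 3) : ℝ := ∑ i, hs f i i x

/-- The squared length of the gradient. -/
def gsq (f : E 3 → ℝ) (x : E 3) : ℝ := ∑ i, pd i f x ^ 2

/-- Trace of a matrix. -/
def tr3 (M : Fin 3 → Fin 3 → ℝ) : ℝ := ∑ i, M i i

/-- Contraction of two matrices. -/
def ip3 (M N : Fin 3 → Fin 3 → ℝ) : ℝ := ∑ i, ∑ j, M i j * N i j

/-- Quadratic form of a matrix. -/
def qf (M : Fin 3 → Fin 3 → ℝ) (v w : Fin 3 → ℝ) : ℝ := ∑ i, ∑ j, M i j * v i * w j

/-- The determinant on a plane of a symmetric matrix vanishing on the normal of that plane. -/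
def det2 (M : Fin 3 → Fin 3 → ℝ) : ℝ := (tr3 M ^ 2 - ip3 M M) / 2

/-- A support function `H` and a (negative) time function `U` with positive `W`. -/
structure Dat where
  H : E 3 → ℝ
  U : E 3 → ℝ
  smH : Sm H
  smU : Sm U
  homH : Hom 1 H
  homU : Hom 0 U
  pos : ∀ x : E 3, ‖x‖ = 1 → ∀ v : Fin 3 → ℝ, ∑ i, x i * v i = 0 → v ≠ 0 →
    0 < qf (fun i j => hs H i j x) v v + U x * ∑ i, v i ^ 2

/-- The projection to the plane orthogonal to the unit vector `x`. -/
def pr (x : Fin 3 → ℝ) (i j : Fin 3) : ℝ := kd i j - x i * x j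

namespace Dat

variable (D : Dat)

/-- `W = Hess h + (h + u) I` at the point `x` of the unit sphere (zero on `x`). -/
def W (x : E 3) (i j : Fin 3) : ℝ := hs D.H i j x + D.U x * pr x i j

/-- The cofactor matrix of `W` on the tangent plane. -/
def A (x : E 3) (i j : Fin 3) : ℝ := tr3 (D.W x) * pr x i j - D.W x i j

/-- The determinant of `W` on the tangent plane: the area density of the surface. -/
def dt (x : E 3) : ℝ := det2 (D.W x)

/-- The gradient of `U`. -/
def gU (x : E 3) (i : Fin 3) : ℝ := pd i D.U x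

/-- `tr W + ⟨W⁻¹ ∇U, ∇U⟩`. -/
def Phi (x : E 3) : ℝ := tr3 (D.W x) + qf (D.A x) (D.gU x) (D.gU x) / D.dt x

/-- `L q = div (A ∇q) = ⟨A, Hess q⟩ + ⟨∇U, ∇q⟩` on the unit sphere, for `q` of degree zero. -/
def L (q : E 3 → ℝ) (x : E 3) : ℝ :=
  lap D.H x * lap q x - (∑ i, ∑ j, hs D.H i j x * hs q i j x) + D.U x * lap q x +
    ∑ i, pd i D.U x * pd i q x

end Dat

/-- Test functions: smooth and homogeneous of degree zero. -/
structure Q (q : E 3 → ℝ) : Prop where
  sm : Sm q
  hom : Hom 0 q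

/-- The tangential Hessian at the unit vector `x` of a function of degree zero. -/
def Zb (q : E 3 → ℝ) (x : E 3) (i j : Fin 3) : ℝ := hs q i j x + pd i q x * x j + x i * pd j q x

/-- `cos (θ / 2)`, where `2 sin (θ / 2)` is the length of the gradient. -/
def cc (q : E 3 → ℝ) (x : E 3) : ℝ := √(1 - gsq q x / 4)

/-- The Hessian of `q + c(·, y)` at the contact point `x`, `y = T x`, for the cost
`c(x, y) = - 2 ‖x + y‖`. -/
def Bq (q : E 3 → ℝ) (x : E 3) (i j : Fin 3) : ℝ :=
  Zb q x i j + (2 * cc q x ^ 2 - 1) / cc q x * pr x i j + pd i q x * pd j q x / (4 * cc q x)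

/-- The transport map on the unit sphere. -/
def T (q : E 3 → ℝ) (x : E 3) (i : Fin 3) : ℝ :=
  (2 * cc q x ^ 2 - 1) * x i + cc q x * pd i q x

end Vale.Agent.P366.H353
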