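import Mathlib
import Vale.Agent.P366.H353.Defs

/-! Null shells: basic calculus of homogeneous functions and sphere integrals. -/

open MeasureTheory Metric Filter Topology Set
open scoped ContDiff

noncomputable section
namespace Vale.Agent.P366.H353

open Vale.Agent.P366 (sphI sphM pd E)

variable {f h : E 3 → ℝ} {k l : ℤ} {x : E 3}

instance instNE3 : Nontrivial (E 3) := inferInstance

lemma ne_zero_of_one (hx : ‖x‖ = 1) : x ≠ 0 := by
  rintro rfl
  simp at hx

lemma nhds_ne (hx : x ≠ 0) : ∀ᶠ y in 𝓝 x, y ≠ 0 := isOpen_ne.mem_nhds hx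

/-! ### smoothness -/

lemma Sm.diff (hf : Sm f) (hx : x ≠ 0) : DifferentiableAt ℝ f x :=
  (hf x hx).differentiableAt (by simp)

lemma Sm.pd (hf : Sm f) (i : Fin 3) : Sm (pd i f) := fun x hx => by
  have h1 : ContDiffAt ℝ ∞ (fderiv ℝ f) x := (hf x hx).fderiv_right (by simp)
  exact h1.clm_apply contDiffAt_const

lemma Sm.const (c : ℝ) : Sm fun _ => c := fun _ _ => contDiffAt_const

lemma Sm.add (hf : Sm f) (hh : Sm h) : Sm fun x => f x + h x :=
  fun x hx => (hf x hx).add (hh x hx)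

lemma Sm.sub (hf : Sm f) (hh : Sm h) : Sm fun x => f x - h x :=
  fun x hx => (hf x hx).sub (hh x hx)

lemma Sm.mul (hf : Sm f) (hh : Sm h) : Sm fun x => f x * h x :=
  fun x hx => (hf x hx).mul (hh x hx)

lemma Sm.neg (hf : Sm f) : Sm fun x => - f x := fun x hx => (hf x hx).neg

lemma Sm.pow (hf : Sm f) (m : ℕ) : Sm fun x => f x ^ m := fun x hx => (hf x hx).pow m

lemma Sm.sum {ι : Type*} (s : Finset ι) {f : ι → E 3 → ℝ} (hf : ∀ i, Sm (f i)) :
    Sm fun x => ∑ i ∈ s, f i x := fun x hx => ContDiffAt.sum fun i _ => hf i x hx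

lemma Sm.coord (i : Fin 3) : Sm fun x => x i := fun x _ =>
  (contDiff_piLp_apply (p := 2) (i := i)).contDiffAt

lemma Sm.norm : Sm fun x => ‖x‖ := fun _ hx => contDiffAt_norm ℝ hx

lemma Sm.inv (hf : Sm f) (h0 : ∀ x, x ≠ 0 → f x ≠ 0) : Sm fun x => (f x)⁻¹ :=
  fun x hx => (hf x hx).inv (h0 x hx)

lemma Sm.div (hf : Sm f) (hh : Sm h) (h0 : ∀ x, x ≠ 0 → h x ≠ 0) : Sm fun x => f x / h x :=
  fun x hx => (hf x hx).div (hh x hx) (h0 x hx)

lemma Sm.hs (hf : Sm f) (i j : Fin 3) : Sm (hs f i j) := (hf.pd j).pd i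

lemma Sm.lap (hf : Sm f) : Sm (lap f) := Sm.sum _ fun i => hf.hs i i

lemma Sm.gsq (hf : Sm f) : Sm (gsq f) := Sm.sum _ fun i => (hf.pd i).pow 2

lemma Sm.contAt (hf : Sm f) (hx : x ≠ 0) : ContinuousAt f x := (hf x hx).continuousAt

lemma Sm.contOn (hf : Sm f) : ContinuousOn f (sphere (0 : E 3) 1) := fun x hx =>
  (hf.contAt (ne_zero_of_one (by simpa using hx))).continuousWithinAt

lemma Sm.contDiffOn (hf : Sm f) : ContDiffOn ℝ 1 f {x | 0 < ‖x‖} := fun x hx =>
  ((hf x (by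
    rintro rfl
    simp at hx)).of_le (by simp)).contDiffWithinAt

lemma Sm.congr (hf : Sm f) (e : ∀ x, x ≠ 0 → h x = f x) : Sm h := fun x hx =>
  (hf x hx).congr_of_eventuallyEq ((nhds_ne hx).mono fun y hy => e y hy)

/-! ### rules for `pd` -/

lemma pd_congr' (e : ∀ x, x ≠ 0 → h x = f x) (hx : x ≠ 0) (i : Fin 3) : pd i h x = pd i f x :=
  Vale.Agent.P366.pd_congr ((nhds_ne hx).mono fun y hy => e y hy) i

lemma pd_add' (hf : Sm f) (hh : Sm h) (hx : x ≠ 0) (i : Fin 3) :
    pd i (fun y => f y + h y) x = pd i f x + pd i h x :=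
  Vale.Agent.P366.pd_add (hf.diff hx) (hh.diff hx) i

lemma pd_sub' (hf : Sm f) (hh : Sm h) (hx : x ≠ 0) (i : Fin 3) :
    pd i (fun y => f y - h y) x = pd i f x - pd i h x :=
  Vale.Agent.P366.pd_sub (hf.diff hx) (hh.diff hx) i

lemma pd_mul' (hf : Sm f) (hh : Sm h) (hx : x ≠ 0) (i : Fin 3) :
    pd i (fun y => f y * h y) x = f x * pd i h x + pd i f x * h x := by
  rw [Vale.Agent.P366.pd_mul (hf.diff hx) (hh.diff hx) i]

lemma pd_neg' (i : Fin 3) : pd i (fun y => - f y) x = - pd i f x := by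
  unfold Vale.Agent.P366.pd
  rw [show (fun y => - f y) = -f from rfl, fderiv_neg]
  simp

lemma pd_sum' {ι : Type*} (s : Finset ι) {f : ι → E 3 → ℝ} (hf : ∀ i, Sm (f i)) (hx : x ≠ 0)
    (i : Fin 3) : pd i (fun y => ∑ j ∈ s, f j y) x = ∑ j ∈ s, pd i (f j) x :=
  Vale.Agent.P366.pd_sum s (fun j _ => (hf j).diff hx) i

lemma pd_cmul' (hf : Sm f) (c : ℝ) (hx : x ≠ 0) (i : Fin 3) :
    pd i (fun y => c * f y) x = c * pd i f x := by
  rw [pd_mul' (Sm.const c) hf hx, Vale.Agent.P366.pd_const]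
  ring

lemma pd_coord' (i j : Fin 3) : pd i (fun y => y j) x = kd i j :=
  Vale.Agent.P366.pd_coord i j x

lemma pd_norm' (hx : x ≠ 0) (i : Fin 3) : pd i (fun y => ‖y‖) x = x i / ‖x‖ :=
  Vale.Agent.P366.pd_norm hx i

/-- second derivatives commute -/
lemma hs_symm (hf : Sm f) (hx : x ≠ 0) (i j : Fin 3) : hs f i j x = hs f j i x := by
  have hc := hf x hx
  have hd : DifferentiableAt ℝ (fderiv ℝ f) x :=
    (hc.fderiv_right (m := ∞) (by simp)).differentiableAt (by simp)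
  have key : ∀ a b : Fin 3, hs f a b x =
      fderiv ℝ (fderiv ℝ f) x (EuclideanSpace.single a 1) (EuclideanSpace.single b 1) := by
    intro a b
    unfold hs Vale.Agent.P366.pd
    have := fderiv_clm_apply hd (differentiableAt_const (EuclideanSpace.single b (1 : ℝ)))
    rw [this]
    simp
  rw [key, key]
  have h2 : minSmoothness ℝ 2 ≤ (∞ : WithTop ℕ∞) := by
    rw [minSmoothness_of_isRCLikeNormedField]
    exact WithTop.coe_le_coe.2 (le_top : (2 : ℕ∞) ≤ ⊤)
  exact (hc.isSymmSndFDerivAt h2).eq _ _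

/-! ### homogeneity -/

lemma Hom.pd (hf : Sm f) (hk : Hom k f) (i : Fin 3) : Hom (k - 1) (pd i f) := by
  intro x hx r hr
  have hrx : r • x ≠ 0 := smul_ne_zero hr.ne' hx
  have e : (fun y => f (r • y)) =ᶠ[𝓝 x] fun y => r ^ k * f y :=
    (nhds_ne hx).mono fun y hy => hk y hy r hr
  have h1 : fderiv ℝ (fun y => f (r • y)) x (EuclideanSpace.single i 1) =
      r * Vale.Agent.P366.pd i f (r • x) := by
    have hd : HasFDerivAt (fun y : E 3 => r • y) (r • ContinuousLinearMap.id ℝ (E 3)) x :=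
      (hasFDerivAt_id x).const_smul r
    have hc := (hf.diff hrx).hasFDerivAt.comp x hd
    rw [show (fun y => f (r • y)) = f ∘ (fun y : E 3 => r • y) from rfl, hc.fderiv]
    simp [Vale.Agent.P366.pd]
  have h2 : fderiv ℝ (fun y => f (r • y)) x (EuclideanSpace.single i 1) =
      r ^ k * Vale.Agent.P366.pd i f x := by
    rw [e.fderiv_eq, fderiv_const_mul (hf.diff hx)]
    simp [Vale.Agent.P366.pd]
  have h3 : r * Vale.Agent.P366.pd i f (r • x) = r ^ k * Vale.Agent.P366.pd i f x := by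
    rw [← h1, h2]
  have hr0 : r ≠ 0 := hr.ne'
  rw [zpow_sub₀ hr0, zpow_one]
  field_simp
  linarith

lemma Hom.congr (hk : Hom k f) (e : ∀ x, x ≠ 0 → h x = f x) : Hom k h := fun x hx r hr => by
  rw [e x hx, e _ (smul_ne_zero hr.ne' hx), hk x hx r hr]

lemma Hom.cast {m : ℤ} (hk : Hom k f) (e : k = m) : Hom m f := e ▸ hk

lemma Hom.add (hf : Hom k f) (hh : Hom k h) : Hom k fun x => f x + h x := fun x hx r hr => by
  show f _ + h _ = _
  rw [hf x hx r hr, hh x hx r hr]; ring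

lemma Hom.sub (hf : Hom k f) (hh : Hom k h) : Hom k fun x => f x - h x := fun x hx r hr => by
  show f _ - h _ = _
  rw [hf x hx r hr, hh x hx r hr]; ring

lemma Hom.neg (hf : Hom k f) : Hom k fun x => - f x := fun x hx r hr => by
  show - f _ = _
  rw [hf x hx r hr]; ring

lemma Hom.mul (hf : Hom k f) (hh : Hom l h) : Hom (k + l) fun x => f x * h x := fun x hx r hr => by
  show f _ * h _ = _
  rw [hf x hx r hr, hh x hx r hr, zpow_add₀ hr.ne']; ring

lemma Hom.cmul (hf : Hom k f) (c : ℝ) : Hom k fun x => c * f x := fun x hx r hr => by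
  show c * f _ = _
  rw [hf x hx r hr]; ring

lemma Hom.sum {ι : Type*} (s : Finset ι) {f : ι → E 3 → ℝ} (hf : ∀ i, Hom k (f i)) :
    Hom k fun x => ∑ i ∈ s, f i x := fun x hx r hr => by
  show ∑ i ∈ s, f i _ = _
  rw [Finset.mul_sum]
  exact Finset.sum_congr rfl fun i _ => hf i x hx r hr

lemma Hom.const (c : ℝ) : Hom 0 fun _ => c := fun x hx r hr => by simp

lemma Hom.coord (i : Fin 3) : Hom 1 fun x => x i := fun x hx r hr => by simp

lemma Hom.norm : Hom 1 fun x => ‖x‖ := fun x hx r hr => by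
  show ‖r • x‖ = _
  rw [norm_smul, Real.norm_eq_abs, abs_of_pos hr, zpow_one]

lemma Hom.hs (hf : Sm f) (hk : Hom k f) (i j : Fin 3) : Hom (k - 2) (hs f i j) :=
  ((hk.pd hf j).pd (hf.pd j) i).cast (by ring)

lemma Hom.lap (hf : Sm f) (hk : Hom k f) : Hom (k - 2) (lap f) :=
  Hom.sum _ fun i => hk.hs hf i i

/-- Euler's relation -/
lemma Hom.euler (hf : Sm f) (hk : Hom k f) (hx : x ≠ 0) :
    ∑ i, x i * Vale.Agent.P366.pd i f x = k * f x := by
  have h1 : fderiv ℝ f x x = ∑ i, x i * Vale.Agent.P366.pd i f x :=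
    Vale.Agent.P366.fderiv_eq_sum_pd f x x
  rw [← h1]
  have hd : HasDerivAt (fun s : ℝ => s • x) x 1 := by
    simpa using (hasDerivAt_id (1 : ℝ)).smul_const x
  have hf1 : HasFDerivAt f (fderiv ℝ f x) ((1 : ℝ) • x) := by
    rw [one_smul]; exact (hf.diff hx).hasFDerivAt
  have h2 : HasDerivAt (fun s : ℝ => f (s • x)) (fderiv ℝ f x x) 1 := hf1.comp_hasDerivAt 1 hd
  have h3 : HasDerivAt (fun s : ℝ => s ^ k * f x) (k * f x) 1 := by
    have := (hasDerivAt_zpow k (1 : ℝ) (Or.inl one_ne_zero)).mul_const (f x)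
    simpa using this
  have e : (fun s : ℝ => f (s • x)) =ᶠ[𝓝 1] fun s => s ^ k * f x := by
    filter_upwards [lt_mem_nhds (zero_lt_one : (0 : ℝ) < 1)] with s hs using hk x hx s hs
  exact (h2.congr_of_eventuallyEq e.symm).unique h3

/-! ### sphere integrals -/

lemma S2_eq (f : E 3 → ℝ) : S2 f = sphI f 1 := by
  unfold S2 Vale.Agent.P366.sphI
  simp only [one_smul]

lemma int_sph (hf : ContinuousOn f (sphere (0 : E 3) 1)) :
    Integrable (fun θ : sphere (0 : E 3) 1 => f (θ : E 3)) (sphM 3) := by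
  have hc : Continuous fun θ : sphere (0 : E 3) 1 => f (θ : E 3) :=
    continuousOn_iff_continuous_domRestrict.1 hf
  have : CompactSpace (sphere (0 : E 3) 1) := isCompact_iff_compactSpace.1 (isCompact_sphere _ _)
  exact hc.integrable_of_hasCompactSupport (HasCompactSupport.of_compactSpace _)

lemma S2_congr (e : ∀ x : E 3, ‖x‖ = 1 → f x = h x) : S2 f = S2 h := by
  unfold S2
  exact integral_congr_ae (Eventually.of_forall fun θ => e θ (by simp))

lemma S2_add (hf : ContinuousOn f (sphere (0 : E 3) 1)) (hh : ContinuousOn h (sphere (0 : E 3) 1)) :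
    S2 (fun x => f x + h x) = S2 f + S2 h := integral_add (int_sph hf) (int_sph hh)

lemma S2_sub (hf : ContinuousOn f (sphere (0 : E 3) 1)) (hh : ContinuousOn h (sphere (0 : E 3) 1)) :
    S2 (fun x => f x - h x) = S2 f - S2 h := integral_sub (int_sph hf) (int_sph hh)

lemma S2_neg (f : E 3 → ℝ) : S2 (fun x => - f x) = - S2 f := integral_neg _

lemma S2_cmul (c : ℝ) (f : E 3 → ℝ) : S2 (fun x => c * f x) = c * S2 f := integral_const_mul _ _

lemma S2_mono (hf : ContinuousOn f (sphere (0 : E 3) 1)) (hh : ContinuousOn h (sphere (0 : E 3) 1))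
    (e : ∀ x : E 3, ‖x‖ = 1 → f x ≤ h x) : S2 f ≤ S2 h :=
  integral_mono (int_sph hf) (int_sph hh) fun θ => e θ (by simp)

lemma S2_nonneg (e : ∀ x : E 3, ‖x‖ = 1 → 0 ≤ f x) : 0 ≤ S2 f :=
  integral_nonneg fun θ => e θ (by simp)

lemma S2_const (c : ℝ) : S2 (fun _ => c) = 4 * Real.pi * c := by
  have h1 : (sphM 3).real univ = 4 * Real.pi := by
    rw [Measure.real, Measure.toSphere_apply_univ]
    rw [EuclideanSpace.volume_ball_fin_three]
    simp only [finrank_euclideanSpace, Fintype.card_fin, ENNReal.toReal_mul, ENNReal.toReal_natCast,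
      ENNReal.toReal_pow, ENNReal.toReal_ofReal zero_le_one, one_pow, one_mul]
    rw [ENNReal.toReal_ofReal (by positivity)]
    push_cast
    ring
  unfold S2
  rw [integral_const, h1, smul_eq_mul]

/-- The divergence theorem for homogeneous fields. -/
theorem S2_div {F : Fin 3 → E 3 → ℝ} (hF : ∀ i, Sm (F i)) (hk : ∀ i, Hom k (F i)) :
    S2 (fun x => ∑ i, pd i (F i) x) = (k + 2) * S2 (fun x => ∑ i, F i x * x i) := by
  have hd := Vale.Agent.P366.flux_hasDerivAt (le_refl (0 : ℝ)) (W := F)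
    (fun i => (hF i).contDiffOn) (r := 1) one_pos
  have e : Vale.Agent.P366.flux F =ᶠ[𝓝 1] fun r => r ^ (k + 2) * S2 (fun x => ∑ i, F i x * x i) := by
    filter_upwards [lt_mem_nhds (zero_lt_one : (0 : ℝ) < 1)] with r hr
    unfold Vale.Agent.P366.flux
    have h1 : sphI (fun x => ∑ i, F i x * (x i / ‖x‖)) r =
        r ^ k * S2 (fun x => ∑ i, F i x * x i) := by
      rw [← S2_cmul]
      unfold Vale.Agent.P366.sphI S2
      refine integral_congr_ae (Eventually.of_forall fun θ => ?_)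
      have hθ : (θ : E 3) ≠ 0 := ne_zero_of_one (by simp)
      have hn : ‖r • (θ : E 3)‖ = r := Vale.Agent.P366.norm_smul_sph hr.le θ
      simp only [hn, Finset.mul_sum]
      refine Finset.sum_congr rfl fun i _ => ?_
      rw [hk i _ hθ r hr]
      simp only [PiLp.smul_apply, smul_eq_mul]
      field_simp
    rw [h1, zpow_add₀ hr.ne']
    norm_num
    ring
  have h3 : HasDerivAt (fun r : ℝ => r ^ (k + 2) * S2 (fun x => ∑ i, F i x * x i))
      (((k : ℝ) + 2) * S2 (fun x => ∑ i, F i x * x i)) 1 := by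
    have := (hasDerivAt_zpow (k + 2) (1 : ℝ) (Or.inl one_ne_zero)).mul_const
      (S2 (fun x => ∑ i, F i x * x i))
    simpa using this
  have h4 := (hd.congr_of_eventuallyEq e.symm).unique h3
  rw [← h4, S2_eq]
  simp only [one_pow, one_mul]
  rfl

end Vale.Agent.P366.H353
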