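import Vale.Agent.P366.H353.Cont
import Vale.Agent.P366.H745.B
import Vale.Agent.P366.H375.D
import Vale.Agent.P366.H375.E
import Vale.Agent.P366.H296.F4

/-! Null shells: the final step of the core inequality. -/

open MeasureTheory Metric Filter Topology Set
open scoped ContDiff

noncomputable section
namespace Vale.Agent.P366.H353

open Vale.Agent.P366 (sphI sphM pd E)

theorem core (D : Dat) : 16 * Real.pi * S2 D.dt ≤ S2 D.Phi ^ 2 := by
  have hdt : ∀ x : E 3, ‖x‖ = 1 → 0 < D.dt x := fun x hx => dt_pos D hx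
  have cdt := D.contOn_dt
  have cPhi := D.contOn_Phi hdt
  have hne : (sphere (0 : E 3) 1).Nonempty := ⟨EuclideanSpace.single 0 1, by simp⟩
  obtain ⟨x0, hx0, hmin⟩ := (isCompact_sphere (0 : E 3) 1).exists_isMinOn hne cdt
  set δ := D.dt x0 with hδ
  have hδ0 : 0 < δ := hdt x0 (by simpa using hx0)
  have hδle : ∀ x : E 3, ‖x‖ = 1 → δ ≤ D.dt x := fun x hx => hmin (by simpa using hx)
  have hV : 0 < S2 D.dt := by
    have h1 : S2 (fun _ => δ) ≤ S2 D.dt := S2_mono continuousOn_const cdt hδle
    rw [S2_const] at h1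
    have : 0 < 4 * Real.pi * δ := by positivity
    linarith
  set V := S2 D.dt with hVdef
  set E' := S2 D.Phi with hE'
  set κ := E' / V with hκ
  have cf : ContinuousOn (fun x => κ * D.dt x - D.Phi x) (sphere (0 : E 3) 1) :=
    (continuousOn_const.mul cdt).sub cPhi
  have f0 : S2 (fun x => κ * D.dt x - D.Phi x) = 0 := by
    have c0 : ContinuousOn (fun x => κ * D.dt x) (sphere (0 : E 3) 1) :=
      continuousOn_const.mul cdt
    rw [S2_sub c0 cPhi, S2_cmul, ← hVdef, ← hE', hκ]
    field_simp
    ring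
  have key : ∀ ε > 0, 16 * Real.pi ≤ κ ^ 2 * V + ε / δ := by
    intro ε hε
    obtain ⟨q, hq, hqe⟩ := dens D cf f0 hε
    have cL := D.contOn_L hq.sm
    have h16 := sixteen D hq
    set r : E 3 → ℝ := fun x => D.L q x - (κ * D.dt x - D.Phi x) with hr
    have cr : ContinuousOn r (sphere (0 : E 3) 1) := cL.sub cf
    have hr0 : S2 r = 0 := by
      rw [hr, S2_sub cL cf, f0, int_L D hq, sub_zero]
    have h1 : S2 (fun x => (D.L q x + D.Phi x) ^ 2 / D.dt x) ≤
        S2 (fun x => (κ ^ 2 * D.dt x + 2 * κ * r x) + (1 / δ) * r x ^ 2) := by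
      refine S2_mono (((cL.add cPhi).pow 2).div cdt fun x hx =>
        (hdt x (by simpa using hx)).ne') ?_ ?_
      · exact ((continuousOn_const.mul cdt).add (continuousOn_const.mul cr)).add
          (continuousOn_const.mul (cr.pow 2))
      · intro x hx
        have hd := hdt x hx
        have e1 : (D.L q x + D.Phi x) ^ 2 / D.dt x =
            κ ^ 2 * D.dt x + 2 * κ * r x + r x ^ 2 / D.dt x := by
          have : D.L q x + D.Phi x = κ * D.dt x + r x := by simp only [hr]; ring
          rw [this]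
          field_simp
          ring
        rw [e1]
        have e2 : r x ^ 2 / D.dt x ≤ 1 / δ * r x ^ 2 := by
          rw [div_mul_eq_mul_div, one_mul]
          exact div_le_div_of_nonneg_left (sq_nonneg _) hδ0 (hδle x hx)
        linarith
    have h2 : S2 (fun x => (κ ^ 2 * D.dt x + 2 * κ * r x) + (1 / δ) * r x ^ 2) =
        κ ^ 2 * V + 1 / δ * S2 (fun x => r x ^ 2) := by
      have c1 : ContinuousOn (fun x => κ ^ 2 * D.dt x) (sphere (0 : E 3) 1) :=
        continuousOn_const.mul cdt
      have c2 : ContinuousOn (fun x => 2 * κ * r x) (sphere (0 : E 3) 1) :=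
        continuousOn_const.mul cr
      have c3 : ContinuousOn (fun x => 1 / δ * r x ^ 2) (sphere (0 : E 3) 1) :=
        continuousOn_const.mul (cr.pow 2)
      have c12 : ContinuousOn (fun x => κ ^ 2 * D.dt x + 2 * κ * r x) (sphere (0 : E 3) 1) :=
        c1.add c2
      rw [S2_add c12 c3, S2_add c1 c2, S2_cmul, S2_cmul, S2_cmul, hr0, mul_zero, add_zero]
    have h3 : 1 / δ * S2 (fun x => r x ^ 2) ≤ ε / δ := by
      rw [div_mul_eq_mul_div, one_mul]
      exact div_le_div_of_nonneg_right hqe.le hδ0.le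
    linarith
  have h16 : 16 * Real.pi ≤ κ ^ 2 * V := by
    by_contra hlt
    push Not at hlt
    have := key ((16 * Real.pi - κ ^ 2 * V) * δ / 2) (by
      have : 0 < 16 * Real.pi - κ ^ 2 * V := by linarith
      positivity)
    have e : (16 * Real.pi - κ ^ 2 * V) * δ / 2 / δ = (16 * Real.pi - κ ^ 2 * V) / 2 := by
      field_simp
    rw [e] at this
    linarith
  calc 16 * Real.pi * V ≤ κ ^ 2 * V * V := by
        exact mul_le_mul_of_nonneg_right h16 hV.le
    _ = E' ^ 2 := by
        rw [hκ]; field_simp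

end Vale.Agent.P366.H353
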